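import Vale.Agent.P028.Full.Bound
import Vale.Agent.P028.Full.Moment
import Vale.Agent.P028.Full.MomentBasic
import Vale.Agent.P028.Full.GenericPools

/-!
Pairs in one cell without an exact relation between the two nodes, one of `a`, `c` large.
-/

noncomputable section

namespace Vale.Agent.P028.Full

open Finset BilinearAux

private theorem bandZ_mono {a b : ℕ} (h : a ≤ b) : bandZ a ≤ bandZ b :=
  Nat.pow_le_pow_right (by norm_num) (Nat.pow_le_pow_right (by norm_num) h)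

private theorem bandOf_mono {X X' : ℝ} (h : X ≤ X') : bandOf X ≤ bandOf X' :=
  Nat.sInf_le (h.trans (le_bandZ_bandOf X'))

private theorem bandOf_le_succ {X : ℝ} : bandOf (2 * X) ≤ bandOf X + 1 := by
  refine Nat.sInf_le ?_
  have h1 := le_bandZ_bandOf X
  have h2 : (2 : ℝ) ≤ bandZ (bandOf X + 1) := by
    have : 2 ≤ bandZ (bandOf X + 1) := Nat.le_self_pow (pow_pos two_pos _).ne' 2
    exact_mod_cast this
  show 2 * X ≤ _
  rw [bandZ_eq (bandOf X + 1)]
  push_cast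
  nlinarith

private theorem bandZ_le_of_bandOf {X : ℝ} (hX : 1 ≤ X) {j : ℕ} (hj : j ≤ bandOf X) :
    (bandZ (j + 1) : ℝ) ≤ 4 * X ^ 2 := by
  refine le_trans (Nat.cast_le.2 (bandZ_mono (Nat.add_le_add_right hj 1))) ?_
  rcases Nat.eq_zero_or_pos (bandOf X) with h | h
  · rw [h]
    have : (bandZ (0 + 1) : ℝ) = 4 := by norm_num [bandZ]
    rw [this]
    nlinarith
  · have h1 := bandZ_bandOf_lt X h
    rw [bandZ_eq]
    push_cast
    nlinarith [show (0 : ℝ) ≤ bandZ (bandOf X) from Nat.cast_nonneg _]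

theorem Ctx.fac_nonneg (C : Ctx) (q r : ℕ) (n : ℤ) :
    0 ≤ pC C.classes q r * wCoin C.classes q r n := by
  have hr : ∀ p, p.Prime → 0 ≤ ratio p := by
    intro p hp
    have h2 : (2 : ℝ) ≤ p := by exact_mod_cast hp.two_le
    exact div_nonneg (by linarith) (by linarith)
  have hd : ∀ v p, p ∈ C.classes.det v → p.Prime := fun v p hp =>
    Nat.prime_of_mem_primeFactors (C.classes.det_sub _ hp)
  refine mul_nonneg (mul_nonneg ?_ ?_) ?_ <;> refine Finset.prod_nonneg fun p hp => hr p ?_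
  · exact hd q p (Finset.mem_filter.1 hp).1
  · exact hd r p (Finset.mem_filter.1 hp).1
  · exact hd q p (Finset.mem_inter.1 (Finset.mem_filter.1 hp).1).1

/-- With at most one coincidence the sum of the powers is the power of the sum. -/
theorem Ctx.facSum_one_pow (C : Ctx) {q r u : ℕ} (hD : dist2 C.ψ q r ≤ 1 / 4) (hu : 0 < u) :
    C.facSum 1 q r ^ u = C.facSum u q r := by
  rcases Finset.card_le_one_iff_subset_singleton.1
    (card_admN_le_one (γ := C.γ) C.classes hD) with ⟨a, ha⟩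
  rcases Finset.subset_singleton_iff.1 ha with h | h <;> simp [Ctx.facSum, h, hu.ne']

open Classical in
/-- One level and one band. -/
private theorem gen_level_le {C : Ctx} {j u : ℕ} {x B B' g ξ ε : ℝ} (hu : 2 ≤ u) (hx : 0 < x)
    (hx4 : x ≤ 1 / 4) (hB : 0 < B) (hB' : 0 ≤ B') (hε : 0 ≤ ε)
    (hψ : ∀ q, 0 ≤ C.ψ q) (hexp : 2 * ξ + 4 * ε + g ≤ (g / 2) * u)
    (hZ : (bandZ (j + 1) : ℝ) ≤ 16 * x⁻¹ ^ 4)
    (h1 : ∑ q ∈ C.S, ∑ r ∈ C.S.filter (fun r => C.GenAt j x q r), wt C.ψ q * wt C.ψ r ≤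
      B * x ^ (1 + g))
    (h2 : ∑ q ∈ C.S, ∑ r ∈ C.S.filter (fun r =>
        r ≠ q ∧ dist2 C.ψ q r ≤ x ∧ SameCell C.k (C.par.thr j) q r),
        wt C.ψ q * wt C.ψ r * C.facSum u q r ≤ B' * x ^ (1 - 2 * ξ) * (bandZ (j + 1) : ℝ) ^ ε) :
    ∑ q ∈ C.S, ∑ r ∈ C.S.filter (fun r => r ≠ q ∧ C.GenAt j x q r),
      wt C.ψ q * wt C.ψ r * C.facSum 1 q r ≤
        (B + 1) * (B' * (16 : ℝ) ^ ε + 1) * x ^ (1 + g / 2) := by
  set T := (C.S ×ˢ C.S).filter (fun z => z.2 ≠ z.1 ∧ C.GenAt j x z.1 z.2) with hT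
  set F : ℕ × ℕ → ℝ := fun z => C.facSum 1 z.1 z.2 with hF
  set w : ℕ × ℕ → ℝ := fun z => wt C.ψ z.1 * wt C.ψ z.2 with hw
  have hw0 : ∀ z ∈ T, 0 ≤ w z := fun z _ => mul_nonneg (wt_nonneg hψ _) (wt_nonneg hψ _)
  have hf0 : ∀ (v : ℕ) (z : ℕ × ℕ), 0 ≤ C.facSum v z.1 z.2 := fun v z =>
    Finset.sum_nonneg fun n _ => pow_nonneg (C.fac_nonneg _ _ n) _
  have hg0 : ∀ z ∈ T, 0 ≤ w z * F z ^ u := fun z hz =>
    mul_nonneg (hw0 z hz) (pow_nonneg (hf0 1 z) _)
  have hsum1 : ∑ z ∈ T, w z ≤ B * x ^ (1 + g) := by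
    refine le_trans ?_ h1
    rw [hT, Finset.sum_filter, Finset.sum_product]
    simp only [Finset.sum_filter]
    refine Finset.sum_le_sum fun q _ => Finset.sum_le_sum fun r _ => ?_
    by_cases hc : r ≠ q ∧ C.GenAt j x q r
    · rw [if_pos hc, if_pos hc.2]
    · rw [if_neg hc]; split_ifs
      · exact mul_nonneg (wt_nonneg hψ _) (wt_nonneg hψ _)
      · exact le_rfl
  have hsum2 : ∑ z ∈ T, w z * F z ^ u ≤ B' * x ^ (1 - 2 * ξ) * (bandZ (j + 1) : ℝ) ^ ε := by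
    refine le_trans ?_ h2
    rw [hT, Finset.sum_filter, Finset.sum_product]
    simp only [Finset.sum_filter]
    refine Finset.sum_le_sum fun q _ => Finset.sum_le_sum fun r _ => ?_
    by_cases hc : r ≠ q ∧ C.GenAt j x q r
    · rw [if_pos hc, if_pos ⟨hc.1, hc.2.2.1, hc.2.1⟩]
      simp only [hw, hF]
      rw [C.facSum_one_pow (hc.2.2.1.trans hx4) (by omega)]
    · rw [if_neg hc]; split_ifs
      · exact mul_nonneg (mul_nonneg (wt_nonneg hψ _) (wt_nonneg hψ _)) (hf0 u (q, r))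
      · exact le_rfl
  have hu0 : (0 : ℝ) < u := Nat.cast_pos.2 (by omega)
  have e0 : ∀ a : ℝ, 0 ≤ a → (a ^ u) ^ (1 / (u : ℝ)) = a := fun a ha => by
    rw [one_div, Real.pow_rpow_inv_natCast ha (by omega)]
  have h : 1 < u := hu
  have hinv : 1 / (u : ℝ) < 1 := by
    rw [div_lt_one hu0]; exact_mod_cast h
  have hinv0 : 0 < 1 / (u : ℝ) := by positivity
  have hhold := sum_rpow2_le T w (fun z => w z * F z ^ u) (a := 1 - 1 / (u : ℝ))
    (by linarith) (by linarith) hw0 hg0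
  rw [sub_sub_cancel] at hhold
  have hA : ∑ q ∈ C.S, ∑ r ∈ C.S.filter (fun r => r ≠ q ∧ C.GenAt j x q r),
      wt C.ψ q * wt C.ψ r * C.facSum 1 q r =
      ∑ z ∈ T, w z ^ (1 - 1 / (u : ℝ)) * (w z * F z ^ u) ^ (1 / (u : ℝ)) := by
    rw [hT, Finset.sum_filter, Finset.sum_product]
    simp only [Finset.sum_filter]
    refine Finset.sum_congr rfl fun q _ => Finset.sum_congr rfl fun r _ => ?_
    split_ifs
    · have hz : 0 ≤ wt C.ψ q * wt C.ψ r := mul_nonneg (wt_nonneg hψ _) (wt_nonneg hψ _)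
      simp only [hw, hF]
      rw [Real.mul_rpow hz (pow_nonneg (hf0 1 (q, r)) _), e0 _ (hf0 1 (q, r)), ← mul_assoc,
        ← Real.rpow_add' hz (by linarith), sub_add_cancel, Real.rpow_one]
    · rfl
  rw [hA]
  refine hhold.trans ?_
  have hx1 : x ≤ 1 := by linarith
  have hxi : (1 : ℝ) ≤ x⁻¹ := (one_le_inv₀ hx).2 hx1
  have hZ' : (bandZ (j + 1) : ℝ) ^ ε ≤ (16 : ℝ) ^ ε * x ^ (-(4 * ε)) := by
    refine (Real.rpow_le_rpow (Nat.cast_nonneg _) hZ hε).trans (le_of_eq ?_)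
    rw [Real.mul_rpow (by norm_num) (by positivity), ← Real.rpow_natCast x⁻¹ 4,
      ← Real.rpow_mul (by positivity), Real.inv_rpow hx.le, ← Real.rpow_neg hx.le]
    norm_num
  have hb2 : ∑ z ∈ T, w z * F z ^ u ≤
      (B' * (16 : ℝ) ^ ε + 1) * x ^ (1 - 2 * ξ - 4 * ε) := by
    refine hsum2.trans ?_
    calc B' * x ^ (1 - 2 * ξ) * (bandZ (j + 1) : ℝ) ^ ε
        ≤ B' * x ^ (1 - 2 * ξ) * ((16 : ℝ) ^ ε * x ^ (-(4 * ε))) :=
          mul_le_mul_of_nonneg_left hZ' (by positivity)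
      _ = B' * (16 : ℝ) ^ ε * x ^ (1 - 2 * ξ - 4 * ε) := by
          rw [show 1 - 2 * ξ - 4 * ε = (1 - 2 * ξ) + -(4 * ε) by ring,
            Real.rpow_add hx]
          ring
      _ ≤ _ := mul_le_mul_of_nonneg_right (by linarith) (by positivity)
  calc (∑ z ∈ T, w z) ^ (1 - 1 / (u : ℝ)) * (∑ z ∈ T, w z * F z ^ u) ^ (1 / (u : ℝ))
      ≤ (B * x ^ (1 + g)) ^ (1 - 1 / (u : ℝ)) *
          ((B' * (16 : ℝ) ^ ε + 1) * x ^ (1 - 2 * ξ - 4 * ε)) ^ (1 / (u : ℝ)) :=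
        mul_le_mul (Real.rpow_le_rpow (Finset.sum_nonneg hw0) hsum1 (by linarith))
          (Real.rpow_le_rpow (Finset.sum_nonneg hg0) hb2 hinv0.le)
          (Real.rpow_nonneg (Finset.sum_nonneg hg0) _) (by positivity)
    _ = B ^ (1 - 1 / (u : ℝ)) * (B' * (16 : ℝ) ^ ε + 1) ^ (1 / (u : ℝ)) *
          x ^ ((1 + g) * (1 - 1 / (u : ℝ)) + (1 - 2 * ξ - 4 * ε) * (1 / (u : ℝ))) := by
        rw [Real.mul_rpow hB.le (by positivity), Real.mul_rpow (by positivity) (by positivity),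
          ← Real.rpow_mul hx.le, ← Real.rpow_mul hx.le, Real.rpow_add hx]
        ring
    _ ≤ _ := by
        refine mul_le_mul (mul_le_mul ?_ ?_ (by positivity) (by positivity)) ?_ (by positivity)
          (by positivity)
        · calc B ^ (1 - 1 / (u : ℝ)) ≤ (B + 1) ^ (1 - 1 / (u : ℝ)) :=
                Real.rpow_le_rpow hB.le (by linarith) (by linarith)
            _ ≤ (B + 1) ^ (1 : ℝ) := Real.rpow_le_rpow_of_exponent_le (by linarith) (by linarith)
            _ = B + 1 := Real.rpow_one _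
        · calc _ ≤ (B' * (16 : ℝ) ^ ε + 1) ^ (1 : ℝ) := Real.rpow_le_rpow_of_exponent_le
                  (le_add_of_nonneg_left (by positivity)) hinv.le
            _ = _ := Real.rpow_one _
        · refine Real.rpow_le_rpow_of_exponent_ge hx hx1 ?_
          have : (2 * ξ + 4 * ε + g) * (1 / (u : ℝ)) ≤ g / 2 := by
            rw [mul_one_div, div_le_iff₀ hu0]; exact hexp
          nlinarith

open Classical in
/-- Pairs without an exact relation gain a power of the level. -/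
theorem partBound_generic : PartBound (fun C q r =>
    C.Same q r ∧ C.BothLight q r ∧ ¬ C.Exact q r ∧ ¬ C.Small q r) := by
  obtain ⟨B, g, ν, M0, hB, hg, hν, hgain⟩ := exists_genPairs_le
  obtain ⟨ξm, hξm, hmom⟩ := exists_facMoment_le
  refine ⟨1, one_pos, fun c hc _ => ⟨min ξm (1 / 8), lt_min hξm (by norm_num), fun ξ hξ hξ0 => ?_⟩⟩
  set u : ℕ := ⌈4 * (1 + g) / g⌉₊ + 2 with hu
  have hu0 : 0 < u := by omega
  obtain ⟨M1, hM1⟩ := hmom ξ hξ (hξ0.trans (min_le_left _ _)) u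
  refine ⟨max M0 M1, fun M hM K => ?_⟩
  obtain ⟨B', x2, hx2, hfac⟩ := hM1 M ((le_max_right _ _).trans hM) c K (1 / 4) hc (by norm_num)
  set T : ℝ := (M : ℝ) * (8 + 8 / ν) + 1 with hT
  have hT1 : 1 ≤ T := le_add_of_nonneg_left (by positivity)
  set x1 : ℝ := min (1 / 8) (min (x2 / 2) (min (1 / (2 * B)) (T ^ (-(2 / ν)) / 2))) with hx1
  have hx1p : 0 < x1 := by
    simp only [hx1, lt_min_iff]
    exact ⟨by norm_num, by linarith, by positivity, by positivity⟩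
  set L : ℝ := (B + 1) * (max B' 0 * (16 : ℝ) ^ (1 / 4 : ℝ) + 1) with hL
  set ρ : ℝ := (1 / 2 : ℝ) ^ (g / 2) with hρ
  have hρ0 : 0 ≤ ρ := by positivity
  have hρ1 : ρ < 1 := Real.rpow_lt_one (by norm_num) (by norm_num) (by linarith)
  refine ⟨4 * L * (1 - ρ)⁻¹, x1, hx1p, fun x0 hx0 hx01 C hC hok => ?_⟩
  have hψ := hok.psi_nonneg
  set kind : ℕ → ℕ → Prop := fun q r =>
    C.Same q r ∧ C.BothLight q r ∧ ¬ C.Exact q r ∧ ¬ C.Small q r with hkind
  set lev : ℕ × ℕ → ℕ := fun z => Nat.log 2 ⌊(dist2 C.ψ z.1 z.2)⁻¹⌋₊ with hlev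
  set P := (C.S ×ˢ C.S).filter (fun z => z.2 ≠ z.1 ∧ dist2 C.ψ z.1 z.2 < x0 ∧ kind z.1 z.2) with hP
  set I := P.image lev with hI
  have hxs : ∀ z ∈ P, ∀ x : ℝ, x = (1 / 2 : ℝ) ^ lev z → 0 < dist2 C.ψ z.1 z.2 ∧
      dist2 C.ψ z.1 z.2 ≤ x ∧ x < 2 * dist2 C.ψ z.1 z.2 := by
    intro z hz x hx
    obtain ⟨hm, -, hD, -⟩ := Finset.mem_filter.1 hz
    obtain ⟨hq, hr⟩ := Finset.mem_product.1 hm
    have hD0 : 0 < dist2 C.ψ z.1 z.2 :=
      lt_max_of_lt_left (mul_pos (hok.psi_pos _ hq) (Nat.cast_pos.2 (qd_pos (hok.pos _ hr))))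
    set X := (dist2 C.ψ z.1 z.2)⁻¹ with hX
    have hX8 : (8 : ℝ) ≤ X := by
      rw [hX, le_inv_comm₀ (by norm_num) hD0]
      linarith [hx01.trans (min_le_left _ _)]
    have hfl : 0 < ⌊X⌋₊ := Nat.floor_pos.2 (by linarith)
    have l1 : ((2 : ℝ) ^ lev z) ≤ X :=
      le_trans (by exact_mod_cast Nat.pow_log_le_self 2 hfl.ne') (Nat.floor_le (by linarith))
    have l2 : X < (2 : ℝ) ^ (lev z + 1) :=
      lt_of_lt_of_le (Nat.lt_floor_add_one X)
        (by exact_mod_cast Nat.lt_pow_succ_log_self one_lt_two ⌊X⌋₊)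
    refine ⟨hD0, ?_, ?_⟩
    · rw [hx, one_div, inv_pow, le_inv_comm₀ hD0 (by positivity)]
      exact l1
    · rw [hX, inv_lt_iff_one_lt_mul₀ hD0, pow_succ] at l2
      rw [hx, one_div, inv_pow, inv_lt_iff_one_lt_mul₀ (by positivity)]
      linarith
  set F : ℕ → ℕ → ℝ := fun i j => ∑ q ∈ C.S, ∑ r ∈ C.S.filter (fun r =>
    r ≠ q ∧ C.GenAt j ((1 / 2 : ℝ) ^ i) q r),
      wt C.ψ q * wt C.ψ r * C.facSum 1 q r with hF
  have hw0 : ∀ q r, 0 ≤ wt C.ψ q * wt C.ψ r * C.facSum 1 q r := fun q r =>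
    mul_nonneg (mul_nonneg (wt_nonneg hψ _) (wt_nonneg hψ _))
      (Finset.sum_nonneg fun n _ => pow_nonneg (C.fac_nonneg _ _ n) _)
  -- every pair is counted at its level and band
  have hcount : C.part x0 kind ≤ ∑ i ∈ I, 2 * (2 : ℝ) ^ i *
      (F i (bandOf ((2 : ℝ) ^ i)) + F i (bandOf ((2 : ℝ) ^ i) + 1)) := by
    have hterm : ∀ z ∈ P, C.term z.1 z.2 ≤ 2 * (2 : ℝ) ^ lev z *
        ((if z.2 ≠ z.1 ∧ C.GenAt (bandOf ((2 : ℝ) ^ lev z)) ((1 / 2 : ℝ) ^ lev z) z.1 z.2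
          then wt C.ψ z.1 * wt C.ψ z.2 * C.facSum 1 z.1 z.2 else 0) +
        (if z.2 ≠ z.1 ∧ C.GenAt (bandOf ((2 : ℝ) ^ lev z) + 1) ((1 / 2 : ℝ) ^ lev z) z.1 z.2
          then wt C.ψ z.1 * wt C.ψ z.2 * C.facSum 1 z.1 z.2 else 0)) := by
      intro z hz
      obtain ⟨hD0, hDx, hxD⟩ := hxs z hz _ rfl
      obtain ⟨hm, hne, -, hsame, -, hnex, hnsm⟩ := Finset.mem_filter.1 hz
      set D := dist2 C.ψ z.1 z.2 with hDdef
      rcases (admN C.γ C.ψ C.classes z.1 z.2).eq_empty_or_nonempty with he | ⟨n, hn⟩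
      · rw [Ctx.term, he, Finset.sum_empty, mul_zero]
        exact mul_nonneg (by positivity) (add_nonneg
          (by split_ifs; exacts [hw0 _ _, le_rfl]) (by split_ifs; exacts [hw0 _ _, le_rfl]))
      have hterm : C.term z.1 z.2 ≤
          2 * (2 : ℝ) ^ lev z * (wt C.ψ z.1 * wt C.ψ z.2 * C.facSum 1 z.1 z.2) := by
        have h2 : 1 / D ≤ 2 * (2 : ℝ) ^ lev z := by
          rw [one_div (2 : ℝ), inv_pow, inv_lt_iff_one_lt_mul₀ (by positivity)] at hxD
          rw [div_le_iff₀ hD0]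
          linarith
        calc C.term z.1 z.2 = 1 / D * (wt C.ψ z.1 * wt C.ψ z.2 * C.facSum 1 z.1 z.2) := by
              simp only [Ctx.term, Ctx.facSum, pow_one, ← hDdef]; ring
          _ ≤ _ := mul_le_mul_of_nonneg_right h2 (hw0 _ _)
      have hx1' : (1 : ℝ) ≤ (2 : ℝ) ^ lev z := one_le_pow₀ one_le_two
      have hXx : (2 : ℝ) ^ lev z ≤ D⁻¹ ∧ D⁻¹ ≤ 2 * (2 : ℝ) ^ lev z := by
        constructor
        · rw [le_inv_comm₀ (by positivity) hD0]
          refine hDx.trans (le_of_eq ?_)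
          rw [one_div, inv_pow]
        · rw [one_div (2 : ℝ), inv_pow, inv_lt_iff_one_lt_mul₀ (by positivity)] at hxD
          rw [inv_le_iff_one_le_mul₀ hD0]
          linarith
      obtain ⟨j, hj⟩ : ∃ j, C.pairBand z.1 z.2 = j := ⟨_, rfl⟩
      have hj1 : bandOf ((2 : ℝ) ^ lev z) ≤ j := hj ▸ bandOf_mono hXx.1
      have hj2 : j ≤ bandOf ((2 : ℝ) ^ lev z) + 1 :=
        hj ▸ (bandOf_mono hXx.2).trans bandOf_le_succ
      unfold Ctx.Same at hsame
      unfold Ctx.Exact at hnex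
      unfold Ctx.Small Ctx.cP at hnsm
      unfold Ctx.cP at hnex
      have hcomm : C.pairBand z.2 z.1 = j := by
        rw [← hj, Ctx.pairBand, Ctx.pairBand, dist2, dist2, max_comm]
      rw [hj] at hsame
      simp only [hj, hcomm, ← hDdef] at hnex hnsm
      have hgen : C.GenAt j ((1 / 2 : ℝ) ^ lev z) z.1 z.2 := by
        refine ⟨hsame, hDx, ?_, n, (Finset.mem_filter.1 hn).1, ?_⟩
        · have : (D : ℝ)⁻¹ ^ (1 / 200 : ℝ) < max (cPart C.k C.S (C.par.thr j) z.1 z.2 : ℝ)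
              (cPart C.k C.S (C.par.thr j) z.2 z.1 : ℝ) := by
            by_contra hle
            exact hnsm ⟨(le_max_left _ _).trans (not_lt.1 hle),
              (le_max_right _ _).trans (not_lt.1 hle)⟩
          refine lt_of_le_of_lt ?_ this
          rw [Real.inv_rpow hD0.le, ← Real.rpow_neg hD0.le]
          exact Real.rpow_le_rpow_of_nonpos hD0 hDx (by norm_num)
        · rintro ⟨a1, a2, a3⟩
          exact hnex ⟨a1, a2, n, hn, a3⟩
      refine hterm.trans (mul_le_mul_of_nonneg_left ?_ (by positivity))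
      have hnn : ∀ i, (0 : ℝ) ≤ if z.2 ≠ z.1 ∧ C.GenAt i ((1 / 2 : ℝ) ^ lev z) z.1 z.2
          then wt C.ψ z.1 * wt C.ψ z.2 * C.facSum 1 z.1 z.2 else 0 := fun i => by
        split_ifs; exacts [hw0 _ _, le_rfl]
      rcases (show j = bandOf ((2 : ℝ) ^ lev z) ∨ j = bandOf ((2 : ℝ) ^ lev z) + 1 by omega)
        with h | h <;> rw [h] at hgen
      · exact le_trans (le_of_eq (if_pos ⟨hne, hgen⟩).symm) (le_add_of_nonneg_right (hnn _))
      · exact le_trans (le_of_eq (if_pos ⟨hne, hgen⟩).symm) (le_add_of_nonneg_left (hnn _))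
    have hpart : C.part x0 kind = ∑ z ∈ P, C.term z.1 z.2 := by
      rw [hP, Finset.sum_filter, Finset.sum_product]
      simp only [Ctx.part, Finset.sum_filter]
      exact Finset.sum_congr rfl fun q _ => Finset.sum_congr rfl fun r _ => by
        split_ifs <;> rfl
    rw [hpart]
    refine (Finset.sum_le_sum hterm).trans ?_
    rw [← Finset.sum_fiberwise_of_maps_to (g := lev) (t := I)
      (fun z hz => Finset.mem_image_of_mem _ hz)]
    refine Finset.sum_le_sum fun i _ => ?_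
    obtain ⟨R, hR⟩ : ∃ R : ℕ × ℕ → ℝ, R = fun z => 2 * (2 : ℝ) ^ i *
      ((if z.2 ≠ z.1 ∧ C.GenAt (bandOf ((2 : ℝ) ^ i)) ((1 / 2 : ℝ) ^ i) z.1 z.2
        then wt C.ψ z.1 * wt C.ψ z.2 * C.facSum 1 z.1 z.2 else 0) +
      (if z.2 ≠ z.1 ∧ C.GenAt (bandOf ((2 : ℝ) ^ i) + 1) ((1 / 2 : ℝ) ^ i) z.1 z.2
        then wt C.ψ z.1 * wt C.ψ z.2 * C.facSum 1 z.1 z.2 else 0)) := ⟨_, rfl⟩
    have hR0 : ∀ z, 0 ≤ R z := fun z => by
      rw [hR]
      refine mul_nonneg (by positivity) (add_nonneg ?_ ?_) <;> split_ifs <;>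
        first | exact hw0 _ _ | exact le_rfl
    calc _ = ∑ z ∈ P.filter (fun z => lev z = i), R z := Finset.sum_congr rfl fun z hz => by
            rw [hR, (Finset.mem_filter.1 hz).2]
      _ ≤ ∑ z ∈ C.S ×ˢ C.S, R z := Finset.sum_le_sum_of_subset_of_nonneg
            (fun z hz => (Finset.mem_filter.1 (Finset.mem_filter.1 hz).1).1) fun z _ _ => hR0 z
      _ = _ := by
            rw [hR, ← Finset.mul_sum, Finset.sum_add_distrib]
            simp only [hF, Finset.sum_filter, Finset.sum_product]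
  -- one level
  have hlevel : ∀ i ∈ I, ∀ j, bandOf ((2 : ℝ) ^ i) ≤ j → j ≤ bandOf ((2 : ℝ) ^ i) + 1 →
      (2 : ℝ) ^ i * F i j ≤ L * ρ ^ i := by
    intro i hi j hj1 hj2
    obtain ⟨z, hz, rfl⟩ := Finset.mem_image.1 hi
    obtain ⟨hD0, hDx, hxD⟩ := hxs z hz _ rfl
    set x : ℝ := (1 / 2 : ℝ) ^ lev z with hxdef
    have hxpos : 0 < x := by positivity
    have hxle : x ≤ 2 * x1 := by linarith [(Finset.mem_filter.1 hz).2.2.1]
    have hX : x⁻¹ = (2 : ℝ) ^ lev z := by rw [hxdef, one_div, inv_pow, inv_inv]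
    have hX1 : (1 : ℝ) ≤ x⁻¹ := hX ▸ one_le_pow₀ one_le_two
    rw [← hX] at hj1 hj2 ⊢
    obtain ⟨m1, m2, m3, m4⟩ : x ≤ 1 / 4 ∧ x ≤ x2 ∧ B * x ≤ 1 ∧ x ≤ T ^ (-(2 / ν)) := by
      have a1 : x1 ≤ 1 / 8 := min_le_left _ _
      have a2 : x1 ≤ x2 / 2 := (min_le_right _ _).trans (min_le_left _ _)
      have a3 : x1 ≤ 1 / (2 * B) :=
        (min_le_right _ _).trans ((min_le_right _ _).trans (min_le_left _ _))
      have a4 : x1 ≤ T ^ (-(2 / ν)) / 2 :=
        (min_le_right _ _).trans ((min_le_right _ _).trans (min_le_right _ _))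
      rw [le_div_iff₀ (by positivity)] at a3
      refine ⟨by linarith, by linarith, ?_, by linarith⟩
      nlinarith
    have hZlow : x⁻¹ ≤ (bandZ (j + 1) : ℝ) :=
      (le_bandZ_bandOf _).trans (Nat.cast_le.2 (bandZ_mono (Nat.add_le_add_right hj1 1)))
    have hZup : (bandZ (j + 1) : ℝ) ≤ 16 * x⁻¹ ^ 4 := by
      have hb : bandZ (j + 1) ≤ bandZ (bandOf x⁻¹ + 1 + 1) := bandZ_mono (by omega)
      have h1 := bandZ_le_of_bandOf hX1 (le_refl (bandOf x⁻¹))
      refine le_trans (Nat.cast_le.2 hb) ?_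
      rw [bandZ_eq (bandOf x⁻¹ + 1)]
      push_cast
      calc (bandZ (bandOf x⁻¹ + 1) : ℝ) ^ 2 ≤ (4 * x⁻¹ ^ 2) ^ 2 :=
            pow_le_pow_left₀ (Nat.cast_nonneg _) h1 2
        _ = _ := by ring
    have hthr : (C.par.thr j : ℝ) = (bandZ (j + 1) : ℝ) ^ M := by
      rw [Par.thr, hC]; push_cast; rfl
    have hY : x ^ (-(M0 : ℝ)) ≤ (C.par.thr j : ℝ) := by
      rw [hthr, Real.rpow_neg hxpos.le, Real.rpow_natCast, ← inv_pow]
      exact (pow_le_pow_right₀ hX1 ((le_max_left _ _).trans hM)).trans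
        (pow_le_pow_left₀ (by positivity) hZlow M)
    have hlogY : Real.log (C.par.thr j) ≤ x ^ (-ν) := by
      rw [hthr, Real.log_pow]
      have hl : Real.log (bandZ (j + 1)) ≤ Real.log 16 + 4 * Real.log x⁻¹ := by
        refine (Real.log_le_log (by linarith) hZup).trans (le_of_eq ?_)
        rw [Real.log_mul (by norm_num) (by positivity), Real.log_pow]; norm_num
      have hl16 : Real.log 16 ≤ 8 := by
        have h := Real.log_le_sub_one_of_pos (show (0 : ℝ) < 4 by norm_num)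
        rw [show (16 : ℝ) = 4 ^ 2 by norm_num, Real.log_pow]; push_cast; linarith
      set p := x ^ (-(ν / 2)) with hp
      have hp1 : 1 ≤ p :=
        Real.one_le_rpow_of_pos_of_le_one_of_nonpos hxpos (by linarith) (by linarith)
      have hlp : Real.log x⁻¹ ≤ p / (ν / 2) := by
        refine (Real.log_le_rpow_div (by positivity) (by linarith : (0 : ℝ) < ν / 2)).trans
          (le_of_eq ?_)
        rw [hp, Real.rpow_neg hxpos.le, Real.inv_rpow hxpos.le]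
      have hTp : T ≤ p := by
        have := Real.rpow_le_rpow_of_nonpos hxpos m4 (by linarith : -(ν / 2) ≤ 0)
        rw [← Real.rpow_mul (by linarith), show -(2 / ν) * -(ν / 2) = 1 by field_simp,
          Real.rpow_one] at this
        exact this
      calc (M : ℝ) * Real.log (bandZ (j + 1))
          ≤ (M : ℝ) * (8 + 4 * (p / (ν / 2))) :=
            mul_le_mul_of_nonneg_left (by linarith) (Nat.cast_nonneg _)
        _ ≤ (M : ℝ) * ((8 + 8 / ν) * p) := by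
            refine mul_le_mul_of_nonneg_left ?_ (Nat.cast_nonneg _)
            rw [add_mul]
            refine add_le_add (le_mul_of_one_le_right (by norm_num) hp1) (le_of_eq ?_)
            field_simp; ring
        _ ≤ T * p := by
            rw [← mul_assoc]; exact mul_le_mul_of_nonneg_right (le_add_of_nonneg_right zero_le_one)
              (by linarith)
        _ ≤ p * p := mul_le_mul_of_nonneg_right hTp (by linarith)
        _ = _ := by rw [hp, ← Real.rpow_add hxpos]; ring_nf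
    have h1 := hgain C j x hok.pos hψ hok.mass_le hxpos m3 hY hlogY
    have h2 := hfac C hC hok x hxpos m2 j hj1
    have h2' : ∑ q ∈ C.S, ∑ r ∈ C.S.filter (fun r =>
        r ≠ q ∧ dist2 C.ψ q r ≤ x ∧ SameCell C.k (C.par.thr j) q r),
        wt C.ψ q * wt C.ψ r * C.facSum u q r ≤
        max B' 0 * x ^ (1 - 2 * ξ) * (bandZ (j + 1) : ℝ) ^ (1 / 4 : ℝ) :=
      h2.trans (by gcongr; exact le_max_left _ _)
    have hexp : 2 * ξ + 4 * (1 / 4 : ℝ) + g ≤ g / 2 * u := by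
      have hξ8 : ξ ≤ 1 / 8 := hξ0.trans (min_le_right _ _)
      have h := Nat.le_ceil (4 * (1 + g) / g)
      rw [div_le_iff₀ hg] at h
      rw [hu]; push_cast
      nlinarith
    have h3 := gen_level_le (j := j) (show 2 ≤ u by omega) hxpos m1 hB (le_max_right _ _)
      (by norm_num : (0 : ℝ) ≤ 1 / 4) hψ hexp hZup h1 h2'
    calc x⁻¹ * F (lev z) j ≤ x⁻¹ * (L * x ^ (1 + g / 2)) :=
          mul_le_mul_of_nonneg_left h3 (by positivity)
      _ = L * x ^ (g / 2) := by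
          rw [Real.rpow_add hxpos, Real.rpow_one]; field_simp
      _ = L * ρ ^ lev z := by
          rw [hxdef, hρ, ← Real.rpow_natCast (1 / 2 : ℝ), ← Real.rpow_natCast ((1 / 2 : ℝ) ^ (g / 2)),
            ← Real.rpow_mul (by norm_num), ← Real.rpow_mul (by norm_num)]
          ring_nf
  have hL0 : 0 ≤ L := by positivity
  calc C.part x0 kind ≤ _ := hcount
    _ ≤ ∑ i ∈ I, 4 * L * ρ ^ i := Finset.sum_le_sum fun i hi => by
        have a1 := hlevel i hi _ le_rfl (Nat.le_succ _)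
        have a2 := hlevel i hi _ (Nat.le_succ _) le_rfl
        linarith
    _ ≤ 4 * L * (1 - ρ)⁻¹ := by
        rw [← Finset.mul_sum, ← tsum_geometric_of_lt_one hρ0 hρ1]
        exact mul_le_mul_of_nonneg_left ((summable_geometric_of_lt_one hρ0 hρ1).sum_le_tsum _
          fun i _ => pow_nonneg hρ0 i) (by positivity)

end Vale.Agent.P028.Full
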