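import Vale.Agent.P028.Full.Bound
import Vale.Agent.P028.Full.Moment
import Vale.Agent.P028.Full.Pools
import Vale.Agent.P028.Gain

/-!
Pairs in one cell with a heavy fibre.

Heavy deficiencies of a cell have probability at most `x ^ c` at the level `x`, which gains
`x ^ (c / 3)` for the plain weights; the arithmetic-geometric mean with the second moment of the
anatomy factor turns this into a gain for the terms.
-/

noncomputable section

namespace Vale.Agent.P028.Full

open Finset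

theorem bandOf_le_of_le {X : ℝ} {j : ℕ} (h : X ≤ (bandZ (j + 1) : ℝ)) : bandOf X ≤ j :=
  Nat.sInf_le h

theorem bandOf_mono {X X' : ℝ} (h : X ≤ X') : bandOf X ≤ bandOf X' :=
  bandOf_le_of_le (h.trans (le_bandZ_bandOf X'))

theorem two_le_bandZ (j : ℕ) : 2 ≤ bandZ j :=
  le_self_pow₀ (by norm_num) (by positivity)

/-- Doubling moves the band by at most one. -/
theorem bandOf_le_succ {X X' : ℝ} (h : X' ≤ 2 * X) : bandOf X' ≤ bandOf X + 1 := by
  refine bandOf_le_of_le (h.trans ?_)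
  rw [bandZ_eq (bandOf X + 1), sq, Nat.cast_mul]
  refine le_trans (mul_le_mul_of_nonneg_left (le_bandZ_bandOf X) zero_le_two) ?_
  exact mul_le_mul_of_nonneg_right (by exact_mod_cast two_le_bandZ _) (Nat.cast_nonneg _)

theorem bandZ_le_sq {X : ℝ} (hX : 1 ≤ X) : (bandZ (bandOf X + 1) : ℝ) ≤ 4 * X ^ 2 := by
  rcases Nat.eq_zero_or_pos (bandOf X) with h | h
  · rw [h, show bandZ (0 + 1) = 4 by norm_num [bandZ]]
    push_cast
    nlinarith
  · have h1 := bandZ_bandOf_lt X h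
    rw [bandZ_eq, Nat.cast_pow]
    nlinarith [Nat.cast_nonneg (α := ℝ) (bandZ (bandOf X))]

/-- Arithmetic-geometric mean against a positive weight. -/
theorem le_amgm {w a : ℝ} (hw : 0 < w) : a ≤ (w + w⁻¹ * a ^ 2) / 2 := by
  have h : 0 ≤ w⁻¹ * (a - w) ^ 2 := by positivity
  have e : w⁻¹ * (a - w) ^ 2 = w⁻¹ * a ^ 2 - 2 * a + w := by field_simp; ring
  linarith

open Classical in
/-- Heavy fibres are rare. -/
theorem partBound_heavy : PartBound (fun C q r =>
    C.Same q r ∧ ¬ C.BothLight q r) := by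
  obtain ⟨ξm, hξm, hmom⟩ := exists_facMoment_le
  refine ⟨1, one_pos, fun c hc _ => ⟨min ξm (min (c / 36) (1 / 100)),
    lt_min hξm (lt_min (by positivity) (by norm_num)), fun ξ hξ hξ0 => ?_⟩⟩
  have hξc : ξ ≤ c / 36 := hξ0.trans ((min_le_right _ _).trans (min_le_left _ _))
  have hξ1 : ξ ≤ 1 / 100 := hξ0.trans ((min_le_right _ _).trans (min_le_right _ _))
  obtain ⟨M0, hM0⟩ := hmom ξ hξ (hξ0.trans (min_le_left _ _)) 2
  refine ⟨M0, fun M hM K => ?_⟩
  set ε : ℝ := c / 48 with hε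
  obtain ⟨B, x1, hx1, hB⟩ := hM0 M hM c K ε hc (by positivity)
  obtain ⟨Ch, hCh, hheavy⟩ := exists_heavyPairs_le ξ hξ hξ1
  set γ' : ℝ := c / 6 - 2 * ξ - 2 * ε with hγ'
  have hγ : 0 < γ' := by rw [hγ', hε]; linarith
  set C2 : ℝ := 7 * (2 * Ch * 4) + max B 0 * 16 ^ ε with hC2
  have hC20 : 0 ≤ C2 := by positivity
  set rho : ℝ := (1 / 2 : ℝ) ^ γ' with hrho
  have hr0 : 0 ≤ rho := by positivity
  have hr1 : rho < 1 := Real.rpow_lt_one (by norm_num) (by norm_num) hγ
  refine ⟨2 * C2 / (1 - rho), min x1 1 / 2, by positivity, fun x0 hx0 hx01 C hpar hok => ?_⟩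
  set kind : ℕ → ℕ → Prop := fun q r => C.Same q r ∧ ¬ C.BothLight q r with hkind
  set S := C.S with hS
  set W : ℕ → ℝ := wt C.ψ with hW
  have hW0 : ∀ q, 0 ≤ W q := BilinearAux.wt_nonneg hok.psi_nonneg
  have hM4 : mass C.ψ S ^ (1 + ξ) ≤ 4 := by
    refine (Real.rpow_le_rpow (BilinearAux.mass_nonneg hok.psi_nonneg _) hok.mass_le
      (by linarith)).trans ?_
    refine (Real.rpow_le_rpow_of_exponent_le one_le_two (show 1 + ξ ≤ 2 by linarith)).trans ?_
    norm_num
  set pairs := (S ×ˢ S).filter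
    (fun z => z.2 ≠ z.1 ∧ dist2 C.ψ z.1 z.2 < x0 ∧ kind z.1 z.2) with hpairs
  set lev : ℕ × ℕ → ℕ := fun z =>
    if h : ∃ n : ℕ, (2 : ℝ) ^ n ≤ (dist2 C.ψ z.1 z.2)⁻¹ ∧ (dist2 C.ψ z.1 z.2)⁻¹ < 2 ^ (n + 1)
    then h.choose else 0 with hlev
  set key : ℕ × ℕ → ℕ × ℕ := fun z => (lev z, C.pairBand z.1 z.2) with hkey
  have hdata : ∀ z ∈ pairs, 0 < dist2 C.ψ z.1 z.2 ∧
      dist2 C.ψ z.1 z.2 ≤ (1 / 2 : ℝ) ^ lev z ∧ (1 / 2 : ℝ) ^ lev z < 2 * dist2 C.ψ z.1 z.2 ∧
      (1 / 2 : ℝ) ^ lev z ≤ min x1 1 := by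
    intro z hz
    obtain ⟨hzS, -, hlt, -⟩ := Finset.mem_filter.1 hz
    obtain ⟨hq, hr⟩ := Finset.mem_product.1 hzS
    have hD : 0 < dist2 C.ψ z.1 z.2 := lt_max_of_lt_left (mul_pos (hok.psi_pos _ hq)
      (Nat.cast_pos.2 (BilinearAux.qd_pos (hok.pos _ hr))))
    have h1 : 1 ≤ (dist2 C.ψ z.1 z.2)⁻¹ := by
      rw [one_le_inv₀ hD]
      linarith [min_le_right x1 1]
    have hex := exists_nat_pow_near h1 (one_lt_two : (1 : ℝ) < 2)
    have hl : lev z = hex.choose := by simp only [hlev]; exact dif_pos hex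
    obtain ⟨e1, e2⟩ := hex.choose_spec
    rw [← hl] at e1 e2
    rw [le_inv_comm₀ (by positivity) hD, ← inv_pow, ← one_div] at e1
    rw [inv_lt_comm₀ hD (by positivity), ← inv_pow, ← one_div, pow_succ] at e2
    exact ⟨hD, e1, by linarith, by linarith⟩
  -- one key
  have hone : ∀ kj ∈ pairs.image key,
      ∑ z ∈ pairs.filter (fun z => key z = kj), C.term z.1 z.2 ≤ C2 * rho ^ kj.1 := by
    rintro ⟨l, j⟩ hkj
    obtain ⟨z₀, hz₀, hzk⟩ := Finset.mem_image.1 hkj
    simp only [hkey, Prod.mk.injEq] at hzk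
    set x : ℝ := (1 / 2 : ℝ) ^ l with hx
    have hxpos : 0 < x := by positivity
    obtain ⟨hD₀, hD₀le, hD₀lt, hxle⟩ := hdata z₀ hz₀
    rw [hzk.1, ← hx] at hD₀le hD₀lt hxle
    have hxle1 : x ≤ 1 := hxle.trans (min_le_right _ _)
    have hband : C.pairBand z₀.1 z₀.2 = bandOf (dist2 C.ψ z₀.1 z₀.2)⁻¹ := rfl
    have hj1 : bandOf x⁻¹ ≤ j := by
      rw [← hzk.2, hband]
      exact bandOf_mono (inv_anti₀ hD₀ hD₀le)
    have hj2 : (bandZ (j + 1) : ℝ) ≤ 16 * x ^ (-2 : ℝ) := by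
      rw [← hzk.2, hband]
      refine (bandZ_le_sq ?_).trans ?_
      · rw [one_le_inv₀ hD₀]; linarith
      · rw [Real.rpow_neg hxpos.le, Real.rpow_two]
        have h2 : (dist2 C.ψ z₀.1 z₀.2)⁻¹ ≤ 2 * x⁻¹ := by
          rw [inv_le_iff_one_le_mul₀ hD₀, mul_comm 2, mul_assoc, le_inv_mul_iff₀ hxpos, mul_one]
          linarith
        have h3 := pow_le_pow_left₀ (inv_nonneg.2 hD₀.le) h2 2
        rw [mul_pow, inv_pow, inv_pow] at h3
        rw [inv_pow]
        linarith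
    set Y := C.par.thr j with hY
    set P' := pairs.filter (fun z => key z = (l, j)) with hP'
    have hmem : ∀ z ∈ P', z.1 ∈ S ∧ z.2 ∈ S ∧ z.2 ≠ z.1 ∧ dist2 C.ψ z.1 z.2 ≤ x ∧
        x < 2 * dist2 C.ψ z.1 z.2 ∧ SameCell C.k Y z.1 z.2 ∧
        (¬ C.Light j z.1 ∨ ¬ C.Light j z.2) := by
      intro z hz
      obtain ⟨hzp, hzk'⟩ := Finset.mem_filter.1 hz
      obtain ⟨hzS, hne, -, hsame, hnl⟩ := Finset.mem_filter.1 hzp
      obtain ⟨-, e1, e2, -⟩ := hdata z hzp
      simp only [hkey, Prod.mk.injEq] at hzk'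
      rw [hzk'.1] at e1 e2
      have hsame' : SameCell C.k (C.par.thr (C.pairBand z.1 z.2)) z.1 z.2 := hsame
      rw [hzk'.2] at hsame'
      rw [Ctx.BothLight, hzk'.2, not_and_or] at hnl
      exact ⟨(Finset.mem_product.1 hzS).1, (Finset.mem_product.1 hzS).2, hne, e1, e2, hsame', hnl⟩
    -- the plain weights
    set cond : ℕ → ℕ → Prop := fun q r => dist2 C.ψ q r ≤ x ∧ SameCell C.k Y q r ∧
      max 1 ((C.ψ q * kDef C.k S Y q) ^ (-c)) * mass C.ψ (kCell C.k S Y q) * kProb C.k S Y q <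
        mass C.ψ (kFibre C.k S Y q) with hcond
    have hlight : ∀ q r, ¬ C.Light j q → dist2 C.ψ q r ≤ x → SameCell C.k Y q r → cond q r := by
      intro q r hnl hd hs
      refine ⟨hd, hs, ?_⟩
      have := not_le.1 hnl
      simp only [Ctx.rad, Ctx.def', Ctx.prob, hY, hS, hpar] at this ⊢
      exact this
    have hplain : ∑ z ∈ P', W z.1 * W z.2 ≤ 2 * Ch * 4 * (x ^ (1 - ξ) * x ^ (c / 3)) := by
      have h0 := hheavy C.k S C.ψ Y x c hok.pos hok.psi_nonneg hok.psi_pos hxpos hxle1 hc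
      calc ∑ z ∈ P', W z.1 * W z.2
          ≤ ∑ z ∈ S ×ˢ S, ((if cond z.1 z.2 then W z.1 * W z.2 else 0) +
              (if cond z.2 z.1 then W z.2 * W z.1 else 0)) := by
            have hnn : ∀ q r, 0 ≤ (if cond q r then W q * W r else 0) := fun q r => by
              split_ifs
              · exact mul_nonneg (hW0 q) (hW0 r)
              · exact le_rfl
            refine le_trans (Finset.sum_le_sum fun z hz => ?_)
              (Finset.sum_le_sum_of_subset_of_nonneg (fun z hz => Finset.mem_product.2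
                ⟨(hmem z hz).1, (hmem z hz).2.1⟩) fun z _ _ => add_nonneg (hnn _ _) (hnn _ _))
            obtain ⟨-, -, -, hd, -, hs, hl⟩ := hmem z hz
            rcases hl with hl | hl
            · rw [if_pos (hlight _ _ hl hd hs)]
              exact le_add_of_nonneg_right (hnn _ _)
            · rw [if_pos (hlight z.2 z.1 hl (by rwa [BilinearAux.dist2_comm]) hs.symm),
                mul_comm (W z.2)]
              exact le_add_of_nonneg_left (hnn _ _)
        _ ≤ Ch * x ^ (1 - ξ) * x ^ (c / 3) * mass C.ψ S ^ (1 + ξ) +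
              Ch * x ^ (1 - ξ) * x ^ (c / 3) * mass C.ψ S ^ (1 + ξ) := by
            rw [Finset.sum_add_distrib]
            refine add_le_add (le_trans (le_of_eq ?_) h0) (le_trans (le_of_eq ?_) h0)
            · rw [Finset.sum_product]
              refine Finset.sum_congr rfl fun q _ => ?_
              rw [Finset.sum_filter]
            · rw [Finset.sum_product_right]
              refine Finset.sum_congr rfl fun q _ => ?_
              rw [Finset.sum_filter]
        _ ≤ Ch * x ^ (1 - ξ) * x ^ (c / 3) * 4 + Ch * x ^ (1 - ξ) * x ^ (c / 3) * 4 := by gcongr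
        _ = _ := by ring
    -- the second moment
    have hfac : ∑ z ∈ P', W z.1 * W z.2 * C.facSum 2 z.1 z.2 ≤
        max B 0 * 16 ^ ε * x ^ (1 - 2 * ξ - 2 * ε) := by
      have h0 := hB C hpar hok x hxpos (hxle.trans (min_le_left _ _)) j hj1
      have hnn : ∀ q r, 0 ≤ W q * W r * C.facSum 2 q r := fun q r =>
        mul_nonneg (mul_nonneg (hW0 q) (hW0 r)) (Finset.sum_nonneg fun n _ => sq_nonneg _)
      calc ∑ z ∈ P', W z.1 * W z.2 * C.facSum 2 z.1 z.2
          ≤ ∑ z ∈ (S ×ˢ S).filter (fun z => z.2 ≠ z.1 ∧ dist2 C.ψ z.1 z.2 ≤ x ∧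
                SameCell C.k Y z.1 z.2), W z.1 * W z.2 * C.facSum 2 z.1 z.2 := by
            refine Finset.sum_le_sum_of_subset_of_nonneg (fun z hz => ?_) fun z _ _ => hnn _ _
            obtain ⟨h1, h2, h3, h4, -, h5, -⟩ := hmem z hz
            exact Finset.mem_filter.2 ⟨Finset.mem_product.2 ⟨h1, h2⟩, h3, h4, h5⟩
        _ ≤ B * x ^ (1 - 2 * ξ) * (bandZ (j + 1) : ℝ) ^ ε := by
            refine le_trans (le_of_eq ?_) h0
            rw [Finset.sum_filter, Finset.sum_product]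
            exact Finset.sum_congr rfl fun q _ => by rw [Finset.sum_filter]
        _ ≤ max B 0 * x ^ (1 - 2 * ξ) * (16 * x ^ (-2 : ℝ)) ^ ε := by
            gcongr
            exact le_max_left _ _
        _ = _ := by
            rw [Real.mul_rpow (by norm_num) (Real.rpow_nonneg hxpos.le _),
              ← Real.rpow_mul hxpos.le, show (1 : ℝ) - 2 * ξ - 2 * ε = (1 - 2 * ξ) + (-2 * ε) by ring,
              Real.rpow_add hxpos]
            ring
    set w : ℝ := x ^ (-(c / 6)) with hw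
    have hwpos : 0 < w := Real.rpow_pos_of_pos hxpos _
    have hterm : ∀ z ∈ P', C.term z.1 z.2 ≤ x⁻¹ *
        (w * 7 * (W z.1 * W z.2) + w⁻¹ * (W z.1 * W z.2 * C.facSum 2 z.1 z.2)) := by
      intro z hz
      obtain ⟨-, -, -, hd, hlt, -, -⟩ := hmem z hz
      have hD : 0 < dist2 C.ψ z.1 z.2 := by linarith
      have hFF : 0 ≤ W z.1 * W z.2 := mul_nonneg (hW0 _) (hW0 _)
      have hcard : ((admN C.γ C.ψ C.classes z.1 z.2).card : ℝ) ≤ 7 :=
        (Nat.cast_le.2 (Finset.card_filter_le _ _)).trans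
          ((card_nearSet_le C.γ C.ψ z.1 z.2 hD.le).trans (by linarith))
      have hsum : ∑ n ∈ admN C.γ C.ψ C.classes z.1 z.2, pC C.classes z.1 z.2 *
          wCoin C.classes z.1 z.2 n ≤ (w * 7 + w⁻¹ * C.facSum 2 z.1 z.2) / 2 := by
        refine (Finset.sum_le_sum fun n _ => le_amgm (w := w) hwpos).trans ?_
        rw [← Finset.sum_div, Finset.sum_add_distrib, Finset.sum_const, nsmul_eq_mul,
          ← Finset.mul_sum, mul_comm _ w]
        gcongr
        exact le_of_eq rfl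
      have hF2 : 0 ≤ C.facSum 2 z.1 z.2 := Finset.sum_nonneg fun n _ => sq_nonneg _
      calc C.term z.1 z.2 = W z.1 * W z.2 / dist2 C.ψ z.1 z.2 * ∑ n ∈ admN C.γ C.ψ C.classes z.1 z.2,
            pC C.classes z.1 z.2 * wCoin C.classes z.1 z.2 n := rfl
        _ ≤ W z.1 * W z.2 / dist2 C.ψ z.1 z.2 * ((w * 7 + w⁻¹ * C.facSum 2 z.1 z.2) / 2) :=
            mul_le_mul_of_nonneg_left hsum (div_nonneg hFF hD.le)
        _ = W z.1 * W z.2 * (w * 7 + w⁻¹ * C.facSum 2 z.1 z.2) / (2 * dist2 C.ψ z.1 z.2) := by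
            field_simp
        _ ≤ W z.1 * W z.2 * (w * 7 + w⁻¹ * C.facSum 2 z.1 z.2) / x := by
            refine div_le_div_of_nonneg_left (mul_nonneg hFF ?_) hxpos hlt.le
            positivity
        _ = _ := by rw [div_eq_inv_mul]; ring
    calc ∑ z ∈ P', C.term z.1 z.2
        ≤ x⁻¹ * (w * 7 * ∑ z ∈ P', W z.1 * W z.2 +
            w⁻¹ * ∑ z ∈ P', W z.1 * W z.2 * C.facSum 2 z.1 z.2) := by
          refine (Finset.sum_le_sum hterm).trans (le_of_eq ?_)
          simp only [Finset.mul_sum, mul_add, Finset.sum_add_distrib]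
      _ ≤ x⁻¹ * (w * 7 * (2 * Ch * 4 * (x ^ (1 - ξ) * x ^ (c / 3))) +
            w⁻¹ * (max B 0 * 16 ^ ε * x ^ (1 - 2 * ξ - 2 * ε))) := by gcongr
      _ = 7 * (2 * Ch * 4) * x ^ (c / 6 - ξ) + max B 0 * 16 ^ ε * x ^ γ' := by
          have e1 : x⁻¹ * w * (x ^ (1 - ξ) * x ^ (c / 3)) = x ^ (c / 6 - ξ) := by
            rw [hw, ← Real.rpow_neg_one, ← Real.rpow_add hxpos, ← Real.rpow_add hxpos,
              ← Real.rpow_add hxpos]
            ring_nf
          have e2 : x⁻¹ * w⁻¹ * x ^ (1 - 2 * ξ - 2 * ε) = x ^ γ' := by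
            rw [hw, ← Real.rpow_neg_one x, ← Real.rpow_neg hxpos.le, ← Real.rpow_add hxpos,
              ← Real.rpow_add hxpos, hγ']
            ring_nf
          linear_combination (7 * (2 * Ch * 4)) * e1 + (max B 0 * 16 ^ ε) * e2
      _ ≤ 7 * (2 * Ch * 4) * x ^ γ' + max B 0 * 16 ^ ε * x ^ γ' := by
          refine add_le_add (mul_le_mul_of_nonneg_left
            (Real.rpow_le_rpow_of_exponent_ge hxpos hxle1 ?_) (by positivity)) le_rfl
          rw [hγ', hε]
          linarith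
      _ = C2 * rho ^ l := by
          rw [hC2, hrho, hx, ← Real.rpow_natCast, ← Real.rpow_natCast, ← Real.rpow_mul (by norm_num),
            ← Real.rpow_mul (by norm_num), mul_comm (l : ℝ)]
          ring
  -- sum over the keys
  have hpart : C.part x0 kind = ∑ z ∈ pairs, C.term z.1 z.2 := by
    rw [Ctx.part, hpairs, Finset.sum_filter, Finset.sum_product]
    exact Finset.sum_congr rfl fun q _ => by
      rw [Finset.sum_filter]
      exact Finset.sum_congr rfl fun r _ => ite_congr rfl (fun _ => rfl) (fun _ => rfl)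
  rw [hpart, ← Finset.sum_fiberwise_of_maps_to (g := key) (t := pairs.image key)
    (fun z hz => Finset.mem_image_of_mem _ hz)]
  refine (Finset.sum_le_sum hone).trans ?_
  set N := (pairs.image lev).sup id + 1 with hN
  have hsub : pairs.image key ⊆ (Finset.range N).biUnion (fun l =>
      {(l, bandOf ((2 : ℝ) ^ l)), (l, bandOf ((2 : ℝ) ^ l) + 1)}) := by
    intro kj hkj
    obtain ⟨z, hz, rfl⟩ := Finset.mem_image.1 hkj
    obtain ⟨hD, e1, e2, -⟩ := hdata z hz
    refine Finset.mem_biUnion.2 ⟨lev z, Finset.mem_range.2 (Nat.lt_succ_of_le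
      (Finset.le_sup (f := id) (Finset.mem_image_of_mem _ hz))), ?_⟩
    have hinv : (2 : ℝ) ^ lev z = ((1 / 2 : ℝ) ^ lev z)⁻¹ := by rw [← inv_pow]; norm_num
    have a1 : bandOf ((2 : ℝ) ^ lev z) ≤ C.pairBand z.1 z.2 := by
      rw [hinv]; exact bandOf_mono (inv_anti₀ hD e1)
    have a2 : C.pairBand z.1 z.2 ≤ bandOf ((2 : ℝ) ^ lev z) + 1 := by
      refine bandOf_le_succ ?_
      rw [hinv, ← div_eq_mul_inv, le_div_iff₀ (by positivity), inv_mul_le_iff₀ hD]
      linarith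
    simp only [hkey, Finset.mem_insert, Finset.mem_singleton, Prod.mk.injEq, true_and]
    omega
  refine (Finset.sum_le_sum_of_subset_of_nonneg hsub fun kj _ _ =>
    mul_nonneg hC20 (pow_nonneg hr0 _)).trans ?_
  rw [Finset.sum_biUnion fun l _ l' _ hll => Finset.disjoint_left.2 fun kj h h' => hll ?_]
  swap
  · simp only [Finset.mem_insert, Finset.mem_singleton, Prod.ext_iff] at h h'
    omega
  calc ∑ l ∈ Finset.range N,
        ∑ kj ∈ ({(l, bandOf ((2 : ℝ) ^ l)), (l, bandOf ((2 : ℝ) ^ l) + 1)} : Finset (ℕ × ℕ)),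
          C2 * rho ^ kj.1
      = ∑ l ∈ Finset.range N, 2 * C2 * rho ^ l := by
        refine Finset.sum_congr rfl fun l _ => ?_
        rw [Finset.sum_pair (by simp)]
        ring
    _ ≤ 2 * C2 * (1 - rho)⁻¹ := by
        rw [← Finset.mul_sum]
        refine mul_le_mul_of_nonneg_left ?_ (by positivity)
        rw [← tsum_geometric_of_lt_one hr0 hr1]
        exact (summable_geometric_of_lt_one hr0 hr1).sum_le_tsum _ fun i _ => pow_nonneg hr0 i
    _ = _ := by rw [div_eq_mul_inv]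

end Vale.Agent.P028.Full
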