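import Vale.Agent.P028.Full.Bound
import Vale.Agent.P028.Full.Overlap
import Vale.Agent.P028.Full.LargeDyadic

/-!
Pairs with `D` bounded below.
-/

noncomputable section

namespace Vale.Agent.P028.Full

open Finset

/-- Pairs with `x0 ≤ D` are quasi-independent on average. -/
theorem exists_large_le :
    ∃ c0 : ℝ, 0 < c0 ∧ ∀ c : ℝ, 0 < c → c ≤ c0 → ∃ ξ0 : ℝ, 0 < ξ0 ∧ ∀ ξ : ℝ, 0 < ξ → ξ ≤ ξ0 →
      ∃ M0 : ℕ, ∀ M : ℕ, M0 ≤ M → ∀ K x0 : ℝ, 0 < x0 → ∃ B : ℝ,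
        ∀ C : Ctx, C.par = ⟨M, c⟩ → C.Ok ξ K →
          ∑ q ∈ C.S, ∑ r ∈ C.S.filter (fun r => r ≠ q ∧ x0 ≤ dist2 C.ψ q r), C.term q r ≤ B := by
  classical
  obtain ⟨ξ0, hξ0, hlev⟩ := exists_dyadicLevel_le
  refine ⟨1, one_pos, fun c hc _ => ⟨ξ0, hξ0, fun ξ hξ hξle => ?_⟩⟩
  obtain ⟨M0, hM0⟩ := hlev ξ hξ hξle
  refine ⟨M0, fun M hM K x0 hx0 => ?_⟩
  obtain ⟨W, hW0, hW⟩ := hM0 M hM c K (x0 / 2) hc (by linarith)
  set η := min (ξ / 2) (1 / 1000) with hη
  have hη0 : 0 < η := lt_min (by linarith) (by norm_num)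
  refine ⟨W * 4 + W * ((x0 / 2) ^ (-η) * (1 - (2 : ℝ) ^ (-η))⁻¹), ?_⟩
  intro C hpar hC
  set x1 := x0 / 2 with hx1
  have hx10 : 0 < x1 := by linarith
  set N := ((C.S ×ˢ C.S).sup fun z => ⌈dist2 C.ψ z.1 z.2 / x1⌉₊) + 1 with hN
  set A : ℕ → ℕ → Finset ℕ := fun q m => C.S.filter (fun r => q ≠ r ∧
    (x1 * 2 ^ m < dist2 C.ψ q r ∧ dist2 C.ψ q r ≤ 2 * (x1 * 2 ^ m))) with hA
  have hwt : ∀ q, 0 ≤ wt C.ψ q := fun q => BilinearAux.wt_nonneg hC.psi_nonneg q
  have hterm : ∀ q r, 0 ≤ C.term q r := fun q r => by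
    refine mul_nonneg (div_nonneg (mul_nonneg (hwt q) (hwt r)) ?_) (sum_nonneg fun n _ => ?_)
    · exact le_max_of_le_left (mul_nonneg (hC.psi_nonneg q) (Nat.cast_nonneg _))
    · exact mul_nonneg (pC_nonneg _ _ _) (prod_nonneg fun p _ => ratio_nonneg p)
  have hcover : ∀ q ∈ C.S, C.S.filter (fun r => r ≠ q ∧ x0 ≤ dist2 C.ψ q r) ⊆
      (range N).biUnion (A q) := by
    intro q hq r hr
    obtain ⟨hrS, hne, hD⟩ := mem_filter.1 hr
    set D := dist2 C.ψ q r with hDdef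
    have hex : ∃ m : ℕ, D ≤ 2 * (x1 * 2 ^ m) ∧ m < N := by
      refine ⟨N - 1, ?_, by omega⟩
      have h1 : ⌈D / x1⌉₊ ≤ N - 1 := by
        rw [hN, Nat.add_sub_cancel]
        exact Finset.le_sup (f := fun z : ℕ × ℕ => ⌈dist2 C.ψ z.1 z.2 / x1⌉₊)
          (mem_product.2 ⟨hq, hrS⟩ : (q, r) ∈ C.S ×ˢ C.S)
      have h2 : D / x1 ≤ (2 : ℝ) ^ (N - 1) := (Nat.le_ceil _).trans
        (by exact_mod_cast h1.trans (Nat.lt_two_pow_self).le)
      rw [div_le_iff₀ hx10] at h2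
      have : (0 : ℝ) ≤ x1 * 2 ^ (N - 1) := by positivity
      linarith
    obtain ⟨hm1, hm2⟩ := Nat.find_spec hex
    refine mem_biUnion.2 ⟨Nat.find hex, mem_range.2 hm2,
      mem_filter.2 ⟨hrS, hne.symm, ?_, hm1⟩⟩
    rcases Nat.eq_zero_or_pos (Nat.find hex) with h | h
    · rw [h, pow_zero, mul_one]; linarith
    · have hmin := Nat.find_min hex (show Nat.find hex - 1 < Nat.find hex by omega)
      by_contra hle
      rw [not_lt] at hle
      refine hmin ⟨?_, by omega⟩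
      calc D ≤ x1 * 2 ^ Nat.find hex := hle
        _ = 2 * (x1 * 2 ^ (Nat.find hex - 1)) := by
            rw [← Nat.sub_add_cancel h, pow_succ, Nat.add_sub_cancel]; ring
  calc ∑ q ∈ C.S, ∑ r ∈ C.S.filter (fun r => r ≠ q ∧ x0 ≤ dist2 C.ψ q r), C.term q r ≤
      ∑ q ∈ C.S, ∑ m ∈ range N, ∑ r ∈ A q m, C.term q r :=
        sum_le_sum fun q hq => (sum_le_sum_of_subset_of_nonneg (hcover q hq)
          fun r _ _ => hterm q r).trans (sum_biUnion_le' _ _ fun m _ r _ => hterm q r)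
    _ = ∑ m ∈ range N, ∑ q ∈ C.S, ∑ r ∈ A q m, C.term q r := sum_comm
    _ ≤ ∑ m ∈ range N, (W * (∑ q ∈ C.S, ∑ r ∈ A q m, wt C.ψ q * wt C.ψ r) +
          W * (x1 * 2 ^ m) ^ (-η)) :=
        sum_le_sum fun m _ => hW C hpar hC (x1 * 2 ^ m)
          (le_mul_of_one_le_right hx10.le (one_le_pow₀ one_le_two))
    _ ≤ _ := by
        rw [sum_add_distrib, ← mul_sum, ← mul_sum]
        refine add_le_add (mul_le_mul_of_nonneg_left ?_ hW0)
          (mul_le_mul_of_nonneg_left (sum_dyadic_rpow_le hx10 hη0 N) hW0)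
        rw [sum_comm]
        have hdis : ∀ q, (range N : Set ℕ).PairwiseDisjoint (A q) := by
          intro q a _ b _ hab
          refine disjoint_left.2 fun r ha hb => ?_
          obtain ⟨-, -, ha1, ha2⟩ := mem_filter.1 ha
          obtain ⟨-, -, hb1, hb2⟩ := mem_filter.1 hb
          rcases Nat.lt_or_gt_of_ne hab with h | h
          · have : (2 : ℝ) ^ (a + 1) ≤ 2 ^ b := pow_le_pow_right₀ one_le_two h
            have := mul_le_mul_of_nonneg_left this hx10.le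
            rw [pow_succ] at this
            linarith
          · have : (2 : ℝ) ^ (b + 1) ≤ 2 ^ a := pow_le_pow_right₀ one_le_two h
            have := mul_le_mul_of_nonneg_left this hx10.le
            rw [pow_succ] at this
            linarith
        calc ∑ q ∈ C.S, ∑ m ∈ range N, ∑ r ∈ A q m, wt C.ψ q * wt C.ψ r ≤
            ∑ q ∈ C.S, ∑ r ∈ C.S, wt C.ψ q * wt C.ψ r := sum_le_sum fun q _ => by
              rw [← sum_biUnion (hdis q)]
              exact sum_le_sum_of_subset_of_nonneg (biUnion_subset.2 fun m _ => filter_subset _ _)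
                fun r _ _ => mul_nonneg (hwt q) (hwt r)
          _ ≤ 4 := by
              rw [← sum_mul_sum]
              show mass C.ψ C.S * mass C.ψ C.S ≤ 4
              nlinarith [hC.mass_le, BilinearAux.mass_nonneg hC.psi_nonneg C.S]

end Vale.Agent.P028.Full
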