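import Vale.Agent.P028.Full.Bound

/-!
Pairs which are separated at the band of their level.
-/

noncomputable section

namespace Vale.Agent.P028.Full

/-- Separated pairs gain a power of the threshold. -/
theorem partBound_separated : PartBound (fun C q r =>
    ¬ C.Same q r) := by
  sorry

end Vale.Agent.P028.Full
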