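import Vale.Agent.P028.Full.Bound

/-!
Pairs in one cell without an exact relation between the two nodes, both `a`, `c` small.
-/

noncomputable section

namespace Vale.Agent.P028.Full

/-- There is one such ratio for each pair of deficiencies, and they are summable over the bands. -/
theorem partBound_single : PartBound (fun C q r =>
    C.Same q r ∧ C.BothLight q r ∧ ¬ C.Exact q r ∧ C.Small q r) := by
  sorry

end Vale.Agent.P028.Full
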