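import Vale.Agent.P028.Full.Bound

/-!
Exact pairs all whose small parts are smooth: the lossless sum over the levels.
-/

noncomputable section

namespace Vale.Agent.P028.Full

/-- Survivors are summable over all the bands. -/
theorem partBound_survivor : PartBound (fun C q r =>
    C.Same q r ∧ C.BothLight q r ∧ C.Exact q r ∧ ¬ C.Foreign q r) := by
  sorry

end Vale.Agent.P028.Full
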